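import Vale.Agent.P160.Half.End.Param
import Vale.Agent.P160.Half.Fin.FStmt

/-! # P160, end shell: adapter from `F.Cor1 lam` -/

set_option linter.unusedSectionVars false

namespace Vale.Agent.P160.Half.End288

open Finset Matrix Module Filter Vale.Agent.P160.Half

theorem mQ_eq {n : ℕ} (c : Sym2 (Fin n) → Bool) :
    mQ c = (matZ c).map (Int.cast : ℤ → ℚ) := by
  ext i j
  rw [Matrix.map_apply]
  show (if c s(i, j) then (1 : ℚ) else 0) = ((if c s(i, j) then (1 : ℤ) else 0 : ℤ) : ℚ)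
  split_ifs <;> simp

theorem N_one_eq (n : ℕ) : (N n 1 : ℝ) =
    (by classical exact (((univ : Finset (A.Bits n)).filter fun b =>
      ((matZ b).map (Int.cast : ℤ → ℚ)).rank + 1 = n).card : ℝ)) := by
  classical
  unfold N
  norm_cast
  refine congrArg Finset.card ?_
  ext b
  rw [mem_filter, mem_filter, mQ_eq]

theorem corOneR_of_cor1 (lam : ℝ) (h : F.Cor1 lam) : CorOneR ((2 : ℝ) ^ (-(1 - lam))) := by
  refine corOneR_of_exp (1 - lam) fun e he => ?_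
  obtain ⟨n₀, hn₀⟩ := h e he
  filter_upwards [eventually_ge_atTop n₀] with n hn
  have h1 := hn₀ n hn
  rw [N_one_eq]
  refine le_trans (le_of_eq ?_) (h1.trans (le_of_eq ?_))
  · congr!
  · congr 2

/-- the form with a loss -/
theorem adapt (lam : ℝ) (hlam : 0 ≤ lam) (h : F.Cor1 lam) :
    (∀ c : ℝ, (2 : ℝ) ^ (-(1 - lam)) < c → ∀ᶠ n : ℕ in atTop, q n ≤ c ^ n) ∧
    limsup (fun n : ℕ => q n ^ (1 / (n : ℝ))) atTop ≤ (2 : ℝ) ^ (-(1 - lam)) := by
  refine finalR _ ?_ (corOneR_of_cor1 lam h)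
  calc (1 / 2 : ℝ) = (2 : ℝ) ^ (-(1 : ℝ)) := by rw [Real.rpow_neg_one]; norm_num
    _ ≤ _ := Real.rpow_le_rpow_of_exponent_le (by norm_num) (by linarith)

theorem cor1_zero (h : ∀ lam : ℝ, 0 < lam → F.Cor1 lam) : F.Cor1 0 := by
  intro ε hε
  obtain ⟨n₀, hn₀⟩ := h (ε / 2) (by positivity) (ε / 2) (by positivity)
  refine ⟨n₀, fun n hn => (hn₀ n hn).trans (le_of_eq ?_)⟩
  congr 3
  ring

/-- the sharp form -/
theorem adapt0 (h : F.Cor1 0) :
    Tendsto (fun n : ℕ => q n ^ (1 / (n : ℝ))) atTop (nhds (1 / 2)) ∧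
    (∀ lam : ℝ, 1 / 2 < lam → ∀ᶠ n : ℕ in atTop, q n ≤ lam ^ n) := by
  have h1 := corOneR_of_cor1 0 h
  have h2 : (2 : ℝ) ^ (-(1 - (0 : ℝ))) = 1 / 2 := by
    rw [sub_zero, Real.rpow_neg_one]; norm_num
  rw [h2] at h1
  exact ⟨final (corOneR_half.1 h1), (finalR (1 / 2) le_rfl h1).1⟩

end Vale.Agent.P160.Half.End288
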