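import Vale.Agent.P160.Half.Shell2
import Vale.Agent.P160.Half.Fin.FStmt

/-! # P160, rate 1/2: from the assembly `F.Cor1` to the outer shell -/

namespace Vale.Agent.P160.Half.Shell

open Finset Matrix Filter

/-- the interface of the assembly is the interface of the shell -/
theorem cor1Lam_of_F {lam : ℝ} (h : F.Cor1 lam) : Cor1Lam lam := by
  intro ε hε
  obtain ⟨n₀, h0⟩ := h ε hε
  refine ⟨n₀, fun n hn => ?_⟩
  have h1 := h0 n hn
  unfold matQ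
  convert h1 using 3

theorem cor1Small_of_F (h : F.Cor1 0) : Cor1Small := by
  intro ε hε
  obtain ⟨n₀, h0⟩ := cor1Lam_of_F h ε hε
  refine ⟨n₀, fun n hn => ?_⟩
  have h1 := h0 n hn
  rw [sub_zero] at h1
  exact h1

/-- **rate 1/2 from the assembly** -/
theorem half_of_F (h : F.Cor1 0) :
    (∀ lam : ℝ, 1 / 2 < lam → ∀ᶠ n : ℕ in atTop, q n ≤ lam ^ n) ∧
    Tendsto (fun n : ℕ => q n ^ (1 / (n : ℝ))) atTop (nhds (1 / 2)) :=
  shell (cor1Small_of_F h)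

/-- **rate `2 ^ (-(1 - lam))` from the assembly** -/
theorem lam_of_F {lam : ℝ} (hlam : 0 ≤ lam) (h : F.Cor1 lam) :
    (∀ x : ℝ, (2 : ℝ) ^ (-(1 - lam)) < x → ∀ᶠ n : ℕ in atTop, q n ≤ x ^ n) ∧
    limsup (fun n : ℕ => q n ^ (1 / (n : ℝ))) atTop ≤ (2 : ℝ) ^ (-(1 - lam)) :=
  shell_lam hlam (cor1Lam_of_F h)

end Vale.Agent.P160.Half.Shell
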