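import Mathlib

/-! # P160, half rate, end shell: the corank recursion

`N (n+1) (k+1) * 2 ^ k ≤ (n+1) * 2 ^ (n+1) * N n k`, where `N n k` is the number of symmetric 0/1
matrices of size `n` and rank `n - k` over `ℚ`. -/

set_option linter.unusedSectionVars false

namespace Vale.Agent.P160.Half.End288

open Finset Matrix Module

/-- the symmetric 0/1 matrix of a bit array, over `ℚ` -/
def mQ {α : Type*} (b : Sym2 α → Bool) : Matrix α α ℚ := fun i j => if b s(i, j) then 1 else 0

theorem mQ_symm {α : Type*} (b : Sym2 α → Bool) (i j : α) : mQ b i j = mQ b j i := by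
  unfold mQ; rw [Sym2.eq_swap]

/-! ## Odlyzko -/

/-- a bit as a rational number -/
def bv (b : Bool) : ℚ := if b then 1 else 0

theorem bv_inj {b c : Bool} (h : bv b = bv c) : b = c := by
  cases b <;> cases c <;> simp_all [bv]

/-- A set of 0/1 vectors whose differences lie in a subspace `W` has at most `2 ^ dim W`
elements. -/
theorem card_le_two_pow {ι : Type*} [Fintype ι] [DecidableEq ι] (d : ℕ) :
    ∀ (W : Submodule ℚ (ι → ℚ)) (A : Finset (ι → Bool)), finrank ℚ W ≤ d →
    (∀ x ∈ A, ∀ y ∈ A, (fun i => bv (x i) - bv (y i)) ∈ W) → A.card ≤ 2 ^ d := by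
  induction d with
  | zero =>
    intro W A hW hA
    have hW0 : W = ⊥ := Submodule.finrank_eq_zero.1 (Nat.le_zero.1 hW)
    rw [pow_zero, Finset.card_le_one]
    intro x hx y hy
    have := hA x hx y hy
    rw [hW0, Submodule.mem_bot] at this
    funext i
    have h := congrFun this i
    simp only [Pi.zero_apply] at h
    exact bv_inj (sub_eq_zero.1 h)
  | succ d ih =>
    intro W A hW hA
    by_cases hW0 : W = ⊥
    · refine (ih ⊥ A (by simp) ?_).trans (Nat.pow_le_pow_right (by norm_num) (Nat.le_succ d))
      rwa [hW0] at hA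
    · obtain ⟨w, hw, hw0⟩ := Submodule.exists_mem_ne_zero_of_ne_bot hW0
      obtain ⟨i, hi⟩ : ∃ i, w i ≠ 0 := by
        by_contra hcon
        push Not at hcon
        exact hw0 (funext hcon)
      set W0 : Submodule ℚ (ι → ℚ) := W ⊓ LinearMap.ker (LinearMap.proj i) with hW0def
      have hlt : W0 < W := by
        refine lt_of_le_of_ne inf_le_left fun heq => ?_
        have : w ∈ W0 := heq ▸ hw
        exact hi this.2
      have hfr : finrank ℚ W0 ≤ d := by
        have := Submodule.finrank_lt_finrank_of_lt hlt
        omega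
      have key : ∀ b : Bool, (A.filter fun x => x i = b).card ≤ 2 ^ d := by
        intro b
        refine ih W0 _ hfr fun x hx y hy => ?_
        rw [Finset.mem_filter] at hx hy
        refine ⟨hA x hx.1 y hy.1, ?_⟩
        show bv (x i) - bv (y i) = 0
        rw [hx.2, hy.2, sub_self]
      have hsplit : A.card = (A.filter fun x => x i = true).card +
          (A.filter fun x => x i = false).card := by
        rw [← Finset.card_filter_add_card_filter_not (s := A) (fun x => x i = true)]
        simp
      rw [hsplit, pow_succ]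
      have h1 := key true
      have h2 := key false
      omega

/-! ## Deleting an index in the support of a kernel vector -/

section del

variable {n : ℕ}

/-- rank of the minor -/
theorem rank_del (M : Matrix (Fin (n + 1)) (Fin (n + 1)) ℚ) (hM : ∀ i j, M i j = M j i)
    (v : Fin (n + 1) → ℚ) (hv : M *ᵥ v = 0) (j : Fin (n + 1)) (hj : v j ≠ 0) :
    (M.submatrix j.succAbove j.succAbove).rank = M.rank ∧
      (fun i => M j (j.succAbove i)) ∈
        LinearMap.range (M.submatrix j.succAbove j.succAbove).mulVecLin := by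
  set P := M.submatrix j.succAbove j.succAbove with hP
  have hPs : ∀ i k, P i k = P k i := fun i k => hM _ _
  have hmv : ∀ (w : Fin (n + 1) → ℚ) (i : Fin (n + 1)),
      (M *ᵥ w) i = M i j * w j + ∑ k, M i (j.succAbove k) * w (j.succAbove k) := by
    intro w i
    rw [mulVec, dotProduct, Fin.sum_univ_succAbove _ j]
  set u' : Fin n → ℚ := fun k => - (v (j.succAbove k) / v j) with hu'
  have hy : ∀ i, M j (j.succAbove i) = (P *ᵥ u') i := by
    intro i
    have h1 := congrFun hv (j.succAbove i)
    rw [hmv] at h1
    have h2 : (P *ᵥ u') i = - (∑ k, M (j.succAbove i) (j.succAbove k) * v (j.succAbove k)) / v j := by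
      rw [mulVec, dotProduct, neg_div, Finset.sum_div, ← Finset.sum_neg_distrib]
      refine sum_congr rfl fun k _ => ?_
      rw [hu', hP, submatrix_apply]
      ring
    rw [h2, hM j (j.succAbove i), eq_div_iff hj]
    have h3 : (0 : Fin (n + 1) → ℚ) (j.succAbove i) = 0 := rfl
    rw [h3] at h1
    linarith
  have hyu : ∀ u : Fin n → ℚ, P *ᵥ u = 0 → ∑ k, M j (j.succAbove k) * u k = 0 := by
    intro u hu
    have h1 : ∑ k, M j (j.succAbove k) * u k = (P *ᵥ u') ⬝ᵥ u := by
      rw [dotProduct]
      exact sum_congr rfl fun k _ => by rw [hy k]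
    have h2 : (P *ᵥ u') ⬝ᵥ u = u' ⬝ᵥ (P *ᵥ u) := by
      rw [dotProduct_mulVec, ← mulVec_transpose, show P.transpose = P from by
        ext a b; exact hPs b a]
    rw [h1, h2, hu, dotProduct_zero]
  refine ⟨?_, ⟨u', by funext i; rw [mulVecLin_apply, hy i]⟩⟩
  -- the linear equivalence
  let ext0 : (Fin n → ℚ) →ₗ[ℚ] (Fin (n + 1) → ℚ) :=
    { toFun := fun u => j.insertNth (0 : ℚ) u
      map_add' := by
        intro a b
        funext i
        refine Fin.succAboveCases j ?_ (fun k => ?_) i
        · simp
        · simp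
      map_smul' := by
        intro c a
        funext i
        refine Fin.succAboveCases j ?_ (fun k => ?_) i
        · simp
        · simp }
  have he1 : ∀ u, ext0 u j = 0 := fun u => by
    show (j.insertNth (0 : ℚ) u : Fin (n + 1) → ℚ) j = 0
    simp
  have he2 : ∀ u k, ext0 u (j.succAbove k) = u k := fun u k => by
    show (j.insertNth (0 : ℚ) u : Fin (n + 1) → ℚ) (j.succAbove k) = u k
    simp
  let Φ : (LinearMap.ker P.mulVecLin × ℚ) →ₗ[ℚ] (Fin (n + 1) → ℚ) :=
    (ext0.comp (Submodule.subtype _)).coprod (LinearMap.toSpanSingleton ℚ _ v)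
  have hΦ : ∀ u t, Φ (u, t) = ext0 u + t • v := fun u t => by
    simp [Φ, LinearMap.coprod_apply]
  have hinj : Function.Injective Φ := by
    rw [injective_iff_map_eq_zero]
    rintro ⟨u, t⟩ h
    rw [hΦ] at h
    have h1 := congrFun h j
    rw [Pi.add_apply, he1, zero_add, Pi.smul_apply, smul_eq_mul, Pi.zero_apply] at h1
    have ht : t = 0 := (mul_eq_zero.1 h1).resolve_right hj
    subst ht
    rw [zero_smul, add_zero] at h
    have hu : (u : Fin n → ℚ) = 0 := by
      funext k
      have := congrFun h (j.succAbove k)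
      rwa [he2] at this
    exact Prod.ext (Subtype.ext hu) rfl
  have hrange : LinearMap.range Φ = LinearMap.ker M.mulVecLin := by
    apply le_antisymm
    · rintro _ ⟨⟨u, t⟩, rfl⟩
      rw [hΦ, LinearMap.mem_ker, map_add, map_smul, mulVecLin_apply, mulVecLin_apply, hv, smul_zero,
        add_zero]
      have hu : P *ᵥ (u : Fin n → ℚ) = 0 := u.2
      funext i
      rw [hmv, he1, mul_zero, zero_add]
      simp only [he2]
      refine Fin.succAboveCases j ?_ (fun k => ?_) i
      · exact hyu u hu
      · exact congrFun hu k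
    · intro w hw
      have hw' : M *ᵥ w = 0 := hw
      set t := w j / v j with ht
      set u : Fin n → ℚ := fun k => w (j.succAbove k) - t * v (j.succAbove k) with hu
      have hu0 : P *ᵥ u = 0 := by
        funext i
        have h1 := congrFun hw' (j.succAbove i)
        have h2 := congrFun hv (j.succAbove i)
        rw [hmv, Pi.zero_apply] at h1 h2
        have h3 : (P *ᵥ u) i = (∑ k, M (j.succAbove i) (j.succAbove k) * w (j.succAbove k)) -
            t * ∑ k, M (j.succAbove i) (j.succAbove k) * v (j.succAbove k) := by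
          rw [mulVec, dotProduct, Finset.mul_sum, ← Finset.sum_sub_distrib]
          refine sum_congr rfl fun k _ => ?_
          rw [hu, hP, submatrix_apply]
          ring
        rw [h3, Pi.zero_apply]
        have h4 : t * v j = w j := by rw [ht]; field_simp
        have h5 : M (j.succAbove i) j * w j = t * (M (j.succAbove i) j * v j) := by
          rw [← h4]; ring
        linear_combination h1 - t * h2 - h5
      refine ⟨(⟨u, hu0⟩, t), ?_⟩
      rw [hΦ]
      funext i
      refine Fin.succAboveCases j ?_ (fun k => ?_) i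
      · rw [Pi.add_apply, he1, zero_add, Pi.smul_apply, smul_eq_mul, ht]
        field_simp
      · rw [Pi.add_apply, he2, Pi.smul_apply, smul_eq_mul]
        show w (j.succAbove k) - t * v (j.succAbove k) + t * v (j.succAbove k) = _
        ring
  have hdim : finrank ℚ (LinearMap.ker M.mulVecLin) = finrank ℚ (LinearMap.ker P.mulVecLin) + 1 := by
    rw [← hrange, LinearMap.finrank_range_of_inj hinj, finrank_prod, finrank_self]
  have h1 := LinearMap.finrank_range_add_finrank_ker M.mulVecLin
  have h2 := LinearMap.finrank_range_add_finrank_ker P.mulVecLin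
  rw [finrank_fintype_fun_eq_card, Fintype.card_fin] at h1 h2
  unfold Matrix.rank
  omega

end del

/-! ## The count -/

/-- the number of symmetric 0/1 matrices of size `n` and corank `k` over `ℚ` -/
noncomputable def N (n k : ℕ) : ℕ := by
  classical exact (univ.filter fun b : Sym2 (Fin n) → Bool => (mQ b).rank + k = n).card

/-- the bits without the index `j` -/
def del {n : ℕ} (j : Fin (n + 1)) (b : Sym2 (Fin (n + 1)) → Bool) : Sym2 (Fin n) → Bool :=
  fun e => b (e.map j.succAbove)

theorem mQ_del {n : ℕ} (j : Fin (n + 1)) (b : Sym2 (Fin (n + 1)) → Bool) :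
    mQ (del j b) = (mQ b).submatrix j.succAbove j.succAbove := by
  ext x y
  rfl

/-- the data of a matrix with the index `j` deleted -/
def dat {n : ℕ} (j : Fin (n + 1)) (b : Sym2 (Fin (n + 1)) → Bool) :
    (Sym2 (Fin n) → Bool) × (Fin n → Bool) × Bool :=
  (del j b, fun i => b s(j, j.succAbove i), b s(j, j))

theorem dat_inj {n : ℕ} (j : Fin (n + 1)) : Function.Injective (dat j) := by
  intro b b' h
  have h1 : del j b = del j b' := congrArg Prod.fst h
  have h2 := congrArg (fun x => x.2.1) h
  have h3 : b s(j, j) = b' s(j, j) := congrArg (fun x => x.2.2) h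
  have h4 : ∀ k, b s(j, j.succAbove k) = b' s(j, j.succAbove k) := fun k => congrFun h2 k
  funext e
  induction e using Sym2.ind with
  | _ x y =>
    refine Fin.succAboveCases j (α := fun x => b s(x, y) = b' s(x, y)) ?_ (fun k => ?_) x
    · refine Fin.succAboveCases j (α := fun y => b s(j, y) = b' s(j, y)) h3 (fun l => h4 l) y
    · refine Fin.succAboveCases j
        (α := fun y => b s(j.succAbove k, y) = b' s(j.succAbove k, y)) ?_ (fun l => ?_) y
      · rw [Sym2.eq_swap]; exact h4 k
      · exact congrFun h1 s(k, l)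

theorem N_succ (n k : ℕ) : N (n + 1) (k + 1) * 2 ^ k ≤ (n + 1) * 2 ^ (n + 1) * N n k := by
  classical
  -- a matrix of corank `k+1` has a good index
  have hex : ∀ b : Sym2 (Fin (n + 1)) → Bool, (mQ b).rank + (k + 1) = n + 1 →
      ∃ j : Fin (n + 1), (mQ (del j b)).rank + k = n ∧
        (fun i => bv (b s(j, j.succAbove i))) ∈ LinearMap.range (mQ (del j b)).mulVecLin := by
    intro b hb
    have h1 := LinearMap.finrank_range_add_finrank_ker (mQ b).mulVecLin
    rw [finrank_fintype_fun_eq_card, Fintype.card_fin] at h1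
    have h2 : 0 < finrank ℚ (LinearMap.ker (mQ b).mulVecLin) := by
      have : finrank ℚ (LinearMap.range (mQ b).mulVecLin) = (mQ b).rank := rfl
      omega
    obtain ⟨⟨v, hv⟩, hv0⟩ := (finrank_pos_iff_exists_ne_zero (R := ℚ)).1 h2
    have hv1 : v ≠ 0 := fun h => hv0 (Subtype.ext h)
    obtain ⟨j, hj⟩ := Function.ne_iff.1 hv1
    have hv2 : mQ b *ᵥ v = 0 := hv
    obtain ⟨h3, h4⟩ := rank_del (mQ b) (mQ_symm b) v hv2 j hj
    refine ⟨j, ?_, ?_⟩
    · rw [mQ_del, h3]; omega
    · rw [mQ_del]; exact h4
  set T : Finset ((Sym2 (Fin n) → Bool) × (Fin n → Bool) × Bool) :=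
    univ.filter fun x => (mQ x.1).rank + k = n ∧
      (fun i => bv (x.2.1 i)) ∈ LinearMap.range (mQ x.1).mulVecLin with hT
  have hTcard : T.card * 2 ^ k ≤ 2 ^ (n + 1) * N n k := by
    have h1 : T.card ≤ ∑ c ∈ univ.filter (fun b : Sym2 (Fin n) → Bool => (mQ b).rank + k = n),
        2 * 2 ^ (n - k) := by
      have hmaps : ∀ x ∈ T, x.1 ∈ univ.filter (fun b : Sym2 (Fin n) → Bool => (mQ b).rank + k = n) := by
        intro x hx
        rw [hT, mem_filter] at hx
        exact mem_filter.2 ⟨mem_univ _, hx.2.1⟩
      rw [card_eq_sum_card_fiberwise hmaps]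
      refine sum_le_sum fun c hc => ?_
      have hc' := (mem_filter.1 hc).2
      have h2 : (T.filter fun x => x.1 = c).card ≤
          ((univ.filter fun y : Fin n → Bool => (fun i => bv (y i)) ∈
            LinearMap.range (mQ c).mulVecLin) ×ˢ (univ : Finset Bool)).card := by
        refine card_le_card_of_injOn (fun x => x.2) ?_ ?_
        · intro x hx
          have hx' := mem_filter.1 hx
          have hx'' := (mem_filter.1 hx'.1).2
          rw [Finset.mem_coe, mem_product]
          refine ⟨mem_filter.2 ⟨mem_univ _, ?_⟩, mem_univ _⟩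
          rw [← hx'.2]
          exact hx''.2
        · intro x hx x' hx' hxx
          have e1 := (mem_filter.1 hx).2
          have e2 := (mem_filter.1 hx').2
          exact Prod.ext (e1.trans e2.symm) hxx
      refine h2.trans ?_
      rw [card_product, card_univ, Fintype.card_bool, mul_comm]
      refine Nat.mul_le_mul_left _ ?_
      refine card_le_two_pow (n - k) (LinearMap.range (mQ c).mulVecLin) _ ?_ ?_
      · have : finrank ℚ (LinearMap.range (mQ c).mulVecLin) = (mQ c).rank := rfl
        omega
      · intro x hx y hy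
        have e1 := (mem_filter.1 hx).2
        have e2 := (mem_filter.1 hy).2
        exact Submodule.sub_mem _ e1 e2
    rw [sum_const, smul_eq_mul] at h1
    have hN : (univ.filter (fun b : Sym2 (Fin n) → Bool => (mQ b).rank + k = n)).card = N n k := by
      unfold N
      congr!
    rw [hN] at h1
    rcases Nat.lt_or_ge n k with hnk | hnk
    · have : N n k = 0 := by
        unfold N
        rw [card_eq_zero, filter_eq_empty_iff]
        intro b _ hb
        omega
      rw [this] at h1 ⊢
      simp only [zero_mul, Nat.le_zero] at h1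
      rw [h1]; simp
    · calc T.card * 2 ^ k ≤ (N n k * (2 * 2 ^ (n - k))) * 2 ^ k := Nat.mul_le_mul_right _ h1
        _ = (2 * (2 ^ (n - k) * 2 ^ k)) * N n k := by ring
        _ = 2 ^ (n + 1) * N n k := by
            rw [← pow_add, Nat.sub_add_cancel hnk]; ring
  have hbig : N (n + 1) (k + 1) ≤ (n + 1) * T.card := by
    unfold N
    have h1 : (univ.filter fun b : Sym2 (Fin (n + 1)) → Bool => (mQ b).rank + (k + 1) = n + 1) ⊆
        (univ : Finset (Fin (n + 1))).biUnion fun j => univ.filter fun b => dat j b ∈ T := by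
      intro b hb
      obtain ⟨j, hj1, hj2⟩ := hex b (mem_filter.1 hb).2
      refine mem_biUnion.2 ⟨j, mem_univ _, mem_filter.2 ⟨mem_univ _, ?_⟩⟩
      rw [hT, mem_filter]
      exact ⟨mem_univ _, hj1, hj2⟩
    refine (card_le_card h1).trans (card_biUnion_le.trans ?_)
    refine (sum_le_sum (g := fun _ => T.card) fun j _ => ?_).trans ?_
    · exact card_le_card_of_injOn (dat j) (fun b hb => (mem_filter.1 hb).2)
        (fun b _ b' _ h => dat_inj j h)
    · rw [sum_const, card_univ, Fintype.card_fin, smul_eq_mul]
  calc N (n + 1) (k + 1) * 2 ^ k ≤ (n + 1) * T.card * 2 ^ k := Nat.mul_le_mul_right _ hbig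
    _ = (n + 1) * (T.card * 2 ^ k) := by ring
    _ ≤ (n + 1) * (2 ^ (n + 1) * N n k) := Nat.mul_le_mul_left _ hTcard
    _ = _ := by ring

end Vale.Agent.P160.Half.End288
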