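import Mathlib
import Vale.Agent.P160.Half.End.Cor

/-! # P160, half rate, end shell: all coranks from corank one -/

set_option linter.unusedSectionVars false

namespace Vale.Agent.P160.Half.End288

open Finset Matrix Module Filter

/-- corank one, exponential rate `1/2` -/
def CorOne : Prop := ∀ y : ℝ, 1 / 2 < y → ∀ᶠ n : ℕ in atTop,
  (N n 1 : ℝ) ≤ y ^ n * 2 ^ Fintype.card (Sym2 (Fin n))

theorem card_sym (n : ℕ) :
    Fintype.card (Sym2 (Fin (n + 1))) = Fintype.card (Sym2 (Fin n)) + (n + 1) := by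
  rw [Sym2.card, Sym2.card, Fintype.card_fin, Fintype.card_fin]
  rw [Nat.choose_succ_succ (n + 1) 1]
  simp
  ring

/-- density of corank `k` -/
noncomputable def a (n k : ℕ) : ℝ := (N n k : ℝ) / 2 ^ Fintype.card (Sym2 (Fin n))

theorem a_nonneg (n k : ℕ) : 0 ≤ a n k := by unfold a; positivity

theorem a_le_one (n k : ℕ) : a n k ≤ 1 := by
  classical
  unfold a
  rw [div_le_one (by positivity)]
  have h : N n k ≤ 2 ^ Fintype.card (Sym2 (Fin n)) := by
    unfold N
    refine (card_filter_le _ _).trans ?_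
    rw [card_univ, Fintype.card_fun, Fintype.card_bool]
  exact_mod_cast h

theorem a_succ (n k : ℕ) : a (n + 1) (k + 1) ≤ (n + 1) / 2 ^ k * a n k := by
  have h := N_succ n k
  have h1 : (N (n + 1) (k + 1) : ℝ) * 2 ^ k ≤ (n + 1) * 2 ^ (n + 1) * N n k := by exact_mod_cast h
  unfold a
  rw [card_sym, pow_add, div_le_iff₀ (by positivity)]
  have h2 : (N (n + 1) (k + 1) : ℝ) ≤ (n + 1) * 2 ^ (n + 1) * N n k / 2 ^ k := by
    rw [le_div_iff₀ (by positivity)]; exact h1
  refine h2.trans (le_of_eq ?_)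
  field_simp

/-- the iterated product -/
theorem prod_le (m L : ℕ) (hL : (2 * m : ℝ) ≤ 2 ^ L) (s : ℕ) :
    ∏ t ∈ range s, ((2 * m : ℝ) / 2 ^ (t + 1)) ≤ 2 ^ (L * L) := by
  have h1 : ∀ s ≤ L, ∏ t ∈ range s, ((2 * m : ℝ) / 2 ^ (t + 1)) ≤ (2 ^ L) ^ s := by
    intro s hs
    induction s with
    | zero => simp
    | succ s ih =>
      rw [prod_range_succ, pow_succ]
      have h2 : (2 * m : ℝ) / 2 ^ (s + 1) ≤ 2 ^ L := by
        have h3 : (1 : ℝ) ≤ 2 ^ (s + 1) := one_le_pow₀ (by norm_num)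
        exact (div_le_self (by positivity) h3).trans hL
      have h4 : (0 : ℝ) ≤ (2 * m : ℝ) / 2 ^ (s + 1) := by positivity
      have h5 : (0 : ℝ) ≤ (2 ^ L) ^ s := by positivity
      exact mul_le_mul (ih (by omega)) h2 h4 h5
  rcases Nat.le_total s L with hs | hs
  · refine (h1 s hs).trans ?_
    rw [← pow_mul]
    exact pow_le_pow_right₀ (by norm_num) (Nat.mul_le_mul_left _ hs)
  · induction s, hs using Nat.le_induction with
    | base => rw [pow_mul]; exact h1 L le_rfl
    | succ s hs ih =>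
      rw [prod_range_succ]
      refine (mul_le_of_le_one_right (by positivity) ?_).trans ih
      rw [div_le_one (by positivity)]
      exact hL.trans (pow_le_pow_right₀ (by norm_num) (by omega))

theorem a_le (C x : ℝ) (hx : 1 / 2 ≤ x) (_hC : 0 ≤ C) (H : ∀ n, a n 1 ≤ C * x ^ n) (s n : ℕ) :
    a (n + s) (s + 1) ≤ C * x ^ (n + s) * ∏ t ∈ range s, ((2 * (n + s : ℕ) : ℝ) / 2 ^ (t + 1)) := by
  have key : ∀ (s n m : ℕ), n + s ≤ m → a (n + s) (s + 1) ≤
      C * x ^ (n + s) * ∏ t ∈ range s, ((2 * m : ℝ) / 2 ^ (t + 1)) := by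
    intro s
    induction s with
    | zero => intro n m _; simpa using H n
    | succ s ih =>
      intro n m hm
      have h1 := a_succ (n + s) (s + 1)
      have h2 := ih n m (by omega)
      have h3 : (((n + s : ℕ) : ℝ) + 1) / 2 ^ (s + 1) ≤ x * ((2 * m : ℝ) / 2 ^ (s + 1)) := by
        have h4 : ((n + s : ℕ) : ℝ) + 1 ≤ m := by exact_mod_cast hm
        have hm0 : (0 : ℝ) ≤ m := by positivity
        rw [← mul_div_assoc]
        refine div_le_div_of_nonneg_right ?_ (by positivity)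
        nlinarith
      calc a (n + (s + 1)) (s + 1 + 1) ≤ (((n + s : ℕ) : ℝ) + 1) / 2 ^ (s + 1) * a (n + s) (s + 1) := by
            exact_mod_cast h1
        _ ≤ (x * ((2 * m : ℝ) / 2 ^ (s + 1))) *
            (C * x ^ (n + s) * ∏ t ∈ range s, ((2 * m : ℝ) / 2 ^ (t + 1))) := by
            refine mul_le_mul h3 h2 (a_nonneg _ _) (by positivity)
        _ = C * x ^ (n + (s + 1)) * ∏ t ∈ range (s + 1), ((2 * m : ℝ) / 2 ^ (t + 1)) := by
            rw [prod_range_succ, ← add_assoc, pow_succ]; ring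
  have := key s n (n + s) le_rfl
  exact_mod_cast this

/-- the density of the singular matrices -/
noncomputable def sing (n : ℕ) : ℝ := by
  classical exact ((univ.filter fun b : Sym2 (Fin n) → Bool => (mQ b).rank < n).card : ℝ) /
    2 ^ Fintype.card (Sym2 (Fin n))

theorem sing_le_sum (n : ℕ) : sing n ≤ ∑ k ∈ range n, a n (k + 1) := by
  classical
  unfold sing a
  rw [← Finset.sum_div]
  refine div_le_div_of_nonneg_right ?_ (by positivity)
  have h : (univ.filter fun b : Sym2 (Fin n) → Bool => (mQ b).rank < n) ⊆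
      (range n).biUnion fun k => univ.filter fun b : Sym2 (Fin n) → Bool =>
        (mQ b).rank + (k + 1) = n := by
    intro b hb
    have hb' := (mem_filter.1 hb).2
    refine mem_biUnion.2 ⟨n - (mQ b).rank - 1, mem_range.2 (by omega), mem_filter.2
      ⟨mem_univ _, by omega⟩⟩
  have h2 := (card_le_card h).trans card_biUnion_le
  have h3 : (∑ k ∈ range n, (univ.filter fun b : Sym2 (Fin n) → Bool =>
      (mQ b).rank + (k + 1) = n).card) = ∑ k ∈ range n, N n (k + 1) := by
    refine sum_congr rfl fun k _ => ?_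
    unfold N
    congr!
  rw [h3] at h2
  have h4 : ((univ.filter fun b : Sym2 (Fin n) → Bool => (mQ b).rank < n).card : ℝ) ≤
      ((∑ k ∈ range n, N n (k + 1) : ℕ) : ℝ) := by exact_mod_cast h2
  rw [Nat.cast_sum] at h4
  refine le_trans (le_of_eq ?_) h4
  congr!

theorem sing_le (C x : ℝ) (hx : 1 / 2 ≤ x) (hC : 0 ≤ C) (H : ∀ n, a n 1 ≤ C * x ^ n) (n L : ℕ)
    (hL : (2 * n : ℝ) ≤ 2 ^ L) : sing n ≤ n * (C * x ^ n * 2 ^ (L * L)) := by
  refine (sing_le_sum n).trans ?_
  have h : ∀ k ∈ range n, a n (k + 1) ≤ C * x ^ n * 2 ^ (L * L) := by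
    intro k hk
    have hk' := mem_range.1 hk
    have h1 := a_le C x hx hC H k (n - k)
    rw [Nat.sub_add_cancel hk'.le] at h1
    refine h1.trans ?_
    refine mul_le_mul_of_nonneg_left (prod_le n L hL k) (by positivity)
  refine (sum_le_sum h).trans ?_
  rw [sum_const, card_range, nsmul_eq_mul]

/-- `n 2^{O(log² n)} = 2^{o(n)}` -/
theorem growth (B : ℝ) (hB : 1 < B) (C : ℝ) (hC : 1 ≤ C) : ∀ᶠ n : ℕ in atTop,
    (n : ℝ) * (C * 2 ^ ((Nat.clog 2 (2 * n)) * (Nat.clog 2 (2 * n)))) ≤ B ^ n := by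
  have hlB : 0 < Real.log B := Real.log_pos hB
  have hlC : 0 ≤ Real.log C := Real.log_nonneg hC
  have hc : 0 < Real.log B / (26 + Real.log C) := by positivity
  have h1 := (Real.isLittleO_pow_log_id_atTop (n := 2)).bound hc
  have h2 := tendsto_natCast_atTop_atTop (R := ℝ) |>.eventually h1
  filter_upwards [h2, eventually_ge_atTop 3] with n hn hn3
  have hn0 : (0 : ℝ) < n := by
    have : 0 < n := by omega
    exact_mod_cast this
  have hn3' : (3 : ℝ) ≤ n := by exact_mod_cast hn3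
  set l := Real.log n with hl
  have hl1 : 1 ≤ l := by
    rw [hl, Real.le_log_iff_exp_le hn0]
    exact (Real.exp_one_lt_d9.le.trans (by norm_num)).trans hn3'
  have hn' : l ^ 2 ≤ Real.log B / (26 + Real.log C) * n := by
    have := hn
    rw [id, Real.norm_of_nonneg (by positivity), Real.norm_of_nonneg (by positivity)] at this
    exact this
  set L := Nat.clog 2 (2 * n) with hLdef
  have hL1 : 1 ≤ L := Nat.clog_pos (by norm_num) (by omega)
  have hL2 : (2 : ℕ) ^ (L - 1) < 2 * n := Nat.pow_pred_clog_lt_self (by norm_num) (by omega)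
  have hlog2 := Real.log_two_gt_d9
  have hlog2' := Real.log_two_lt_d9
  have hL3 : (L : ℝ) ≤ 5 * l := by
    have h3 : ((2 : ℝ)) ^ (L - 1) ≤ 2 * n := by exact_mod_cast hL2.le
    have h4 := Real.log_le_log (by positivity) h3
    rw [Real.log_pow, Real.log_mul (by norm_num) hn0.ne', Nat.cast_sub hL1, Nat.cast_one] at h4
    have h5 : ((L : ℝ) - 1) * Real.log 2 ≤ Real.log 2 + l := h4
    nlinarith
  have hL4 : (L : ℝ) * L ≤ 25 * l ^ 2 := by
    have : (0 : ℝ) ≤ L := by positivity
    nlinarith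
  have hpos : 0 < (n : ℝ) * (C * 2 ^ (L * L)) := by positivity
  rw [← Real.log_le_log_iff hpos (by positivity), Real.log_mul hn0.ne' (by positivity),
    Real.log_mul (by positivity) (by positivity), Real.log_pow, Real.log_pow, Nat.cast_mul, ← hl]
  have h6 : (L : ℝ) * L * Real.log 2 ≤ 25 * l ^ 2 := by
    have : (0 : ℝ) ≤ (L : ℝ) * L := by positivity
    nlinarith
  have h7 : (26 + Real.log C) * l ^ 2 ≤ n * Real.log B := by
    have := mul_le_mul_of_nonneg_left hn' (show 0 ≤ 26 + Real.log C by positivity)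
    refine this.trans (le_of_eq ?_)
    field_simp
  nlinarith [mul_le_mul_of_nonneg_left (show (1 : ℝ) ≤ l ^ 2 by nlinarith) hlC]

theorem sing_of_corOne (h : CorOne) (y : ℝ) (hy : 1 / 2 < y) : ∀ᶠ n : ℕ in atTop, sing n ≤ y ^ n := by
  -- reduce to a smaller rate
  set x : ℝ := (1 / 2 + y) / 2 with hxdef
  have hx : 1 / 2 < x := by rw [hxdef]; linarith
  have hxy : x < y := by rw [hxdef]; linarith
  have hx0 : 0 < x := by linarith
  obtain ⟨n0, hn0⟩ := eventually_atTop.1 (h x hx)
  set C : ℝ := max 1 ((x ^ n0)⁻¹ ⊔ 1) with hC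
  have hC1 : 1 ≤ C := le_max_left _ _
  have H : ∀ n, a n 1 ≤ C * x ^ n := by
    intro n
    rcases Nat.lt_or_ge n n0 with hn | hn
    · refine (a_le_one n 1).trans ?_
      rcases le_total 1 x with h1 | h1
      · exact one_le_mul_of_one_le_of_one_le hC1 (one_le_pow₀ h1)
      · have h2 : x ^ n0 ≤ x ^ n := pow_le_pow_of_le_one hx0.le h1 hn.le
        have h3 : (x ^ n0)⁻¹ ≤ C := (le_max_left _ _).trans (le_max_right _ _)
        calc (1 : ℝ) = (x ^ n0)⁻¹ * x ^ n0 := (inv_mul_cancel₀ (by positivity)).symm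
          _ ≤ C * x ^ n := mul_le_mul h3 h2 (by positivity) (by positivity)
    · have h1 := hn0 n hn
      have h2 : a n 1 ≤ x ^ n := by
        unfold a
        rw [div_le_iff₀ (by positivity)]
        exact h1
      refine h2.trans ?_
      exact le_mul_of_one_le_left (by positivity) hC1
  filter_upwards [growth (y / x) (by rw [lt_div_iff₀ hx0]; linarith) C hC1] with n hn
  have h1 := sing_le C x hx.le (by positivity) H n (Nat.clog 2 (2 * n)) (by
    have := Nat.le_pow_clog (b := 2) (by norm_num) (2 * n)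
    exact_mod_cast this)
  refine h1.trans ?_
  calc (n : ℝ) * (C * x ^ n * 2 ^ (Nat.clog 2 (2 * n) * Nat.clog 2 (2 * n)))
      = x ^ n * ((n : ℝ) * (C * 2 ^ ((Nat.clog 2 (2 * n)) * (Nat.clog 2 (2 * n))))) := by ring
    _ ≤ x ^ n * (y / x) ^ n := mul_le_mul_of_nonneg_left hn (by positivity)
    _ = y ^ n := by rw [← mul_pow, mul_div_cancel₀ _ hx0.ne']

end Vale.Agent.P160.Half.End288
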