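import Vale.Agent.P160.Half.End.Fin
import Vale.Agent.P160.Half.SgnRed

/-! # P160, half rate, end shell: the limit of `q_n ^ (1/n)` -/

set_option linter.unusedSectionVars false

namespace Vale.Agent.P160.Half.End288

open Finset Matrix Module Filter

/-- The set of all symmetric `n × n` integer matrices with every entry equal to `1` or `-1`. -/
def SSM (n : ℕ) : Set (Matrix (Fin n) (Fin n) ℤ) :=
  {A | A.IsSymm ∧ ∀ i j, A i j = 1 ∨ A i j = -1}

/-- The probability that a uniformly random symmetric sign matrix of size `n` is singular. -/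
noncomputable def q (n : ℕ) : ℝ :=
  (Set.ncard {A : Matrix (Fin n) (Fin n) ℤ | A ∈ SSM n ∧ A.det = 0} : ℝ) /
    (Set.ncard (SSM n) : ℝ)

theorem sgM_injective (n : ℕ) : Function.Injective (SgnRed.sgM (n := n)) := by
  intro b b' h
  funext e
  induction e using Sym2.ind with
  | _ i j =>
    have h1 := congrFun (congrFun h i) j
    unfold SgnRed.sgM at h1
    by_cases hb : b s(i, j) = true <;> by_cases hb' : b' s(i, j) = true <;> simp_all

theorem range_sgM (n : ℕ) : Set.range (SgnRed.sgM (n := n)) = SSM n := by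
  ext A
  constructor
  · rintro ⟨b, rfl⟩
    refine ⟨?_, fun i j => ?_⟩
    · ext i j
      rw [Matrix.transpose_apply]
      unfold SgnRed.sgM
      rw [Sym2.eq_swap]
    · unfold SgnRed.sgM
      split_ifs
      · exact Or.inr rfl
      · exact Or.inl rfl
  · rintro ⟨hs, hA⟩
    refine ⟨Sym2.lift ⟨fun i j => decide (A i j = -1), fun i j => ?_⟩, ?_⟩
    · have := hs.apply i j
      show decide (A i j = -1) = decide (A j i = -1)
      rw [this]
    · ext i j
      unfold SgnRed.sgM
      rw [Sym2.lift_mk]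
      rcases hA i j with h | h
      · simp [h]
      · simp [h]

theorem q_eq (n : ℕ) : q n =
    ((univ.filter fun b : Sym2 (Fin n) → Bool => (SgnRed.sgM b).det = 0).card : ℝ) /
      2 ^ Fintype.card (Sym2 (Fin n)) := by
  classical
  have h1 : {A : Matrix (Fin n) (Fin n) ℤ | A ∈ SSM n ∧ A.det = 0} =
      SgnRed.sgM '' {b : Sym2 (Fin n) → Bool | (SgnRed.sgM b).det = 0} := by
    ext A
    constructor
    · rintro ⟨hA, hdet⟩
      rw [← range_sgM] at hA
      obtain ⟨b, rfl⟩ := hA
      exact ⟨b, hdet, rfl⟩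
    · rintro ⟨b, hb, rfl⟩
      exact ⟨by rw [← range_sgM]; exact ⟨b, rfl⟩, hb⟩
  have h2 : Set.ncard {b : Sym2 (Fin n) → Bool | (SgnRed.sgM b).det = 0} =
      (Finset.univ.filter (fun b : Sym2 (Fin n) → Bool => (SgnRed.sgM b).det = 0)).card := by
    rw [← Set.ncard_coe_finset]
    congr 1
    ext b
    simp
  have h3 : Set.ncard (SSM n) = 2 ^ Fintype.card (Sym2 (Fin n)) := by
    rw [← range_sgM, ← Set.image_univ, Set.ncard_image_of_injective _ (sgM_injective n),
      Set.ncard_univ, Nat.card_eq_fintype_card, Fintype.card_fun, Fintype.card_bool]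
  unfold q
  rw [h1, Set.ncard_image_of_injective _ (sgM_injective n), h2, h3]
  push_cast
  congr!

theorem q_nonneg (n : ℕ) : 0 ≤ q n := by
  unfold q
  positivity

theorem q_le_one (n : ℕ) : q n ≤ 1 := by
  classical
  rw [q_eq, div_le_one (by positivity)]
  have h : (univ.filter fun b : Sym2 (Fin n) → Bool => (SgnRed.sgM b).det = 0).card ≤
      2 ^ Fintype.card (Sym2 (Fin n)) := by
    refine (card_filter_le _ _).trans ?_
    rw [card_univ, Fintype.card_fun, Fintype.card_bool]
  exact_mod_cast h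

theorem rank_lt_iff {n : ℕ} (M : Matrix (Fin n) (Fin n) ℚ) : M.rank < n ↔ M.det = 0 := by
  constructor
  · intro h
    by_contra hne
    have := Matrix.rank_of_isUnit M ((Matrix.isUnit_iff_isUnit_det M).2 (isUnit_iff_ne_zero.2 hne))
    rw [Fintype.card_fin] at this
    omega
  · intro h
    obtain ⟨v, hv0, hv⟩ := Matrix.exists_mulVec_eq_zero_iff.2 h
    have h1 := LinearMap.finrank_range_add_finrank_ker M.mulVecLin
    rw [finrank_fintype_fun_eq_card, Fintype.card_fin] at h1
    have h2 : 0 < finrank ℚ (LinearMap.ker M.mulVecLin) := by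
      rw [finrank_pos_iff_exists_ne_zero]
      exact ⟨⟨v, hv⟩, fun hh => hv0 (congrArg Subtype.val hh)⟩
    have h3 : finrank ℚ (LinearMap.range M.mulVecLin) = M.rank := rfl
    omega

theorem det_matZ_iff {n : ℕ} (c : Sym2 (Fin n) → Bool) :
    (Vale.Agent.P160.Half.matZ c).det = 0 ↔ (mQ c).rank < n := by
  rw [rank_lt_iff]
  have h1 : mQ c = (Vale.Agent.P160.Half.matZ c).map (Int.castRingHom ℚ) := by
    ext i j
    rw [Matrix.map_apply]
    show (if c s(i, j) then (1 : ℚ) else 0) =
      (Int.castRingHom ℚ) (if c s(i, j) then (1 : ℤ) else 0)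
    split_ifs <;> simp
  rw [h1, ← RingHom.mapMatrix_apply, ← RingHom.map_det]
  simp

theorem q_succ (n : ℕ) : q (n + 1) = sing n := by
  classical
  rw [q_eq, SgnRed.prob_sgM]
  unfold sing
  congr 2
  refine congrArg Finset.card ?_
  ext c
  rw [mem_filter, mem_filter, det_matZ_iff]

/-! ## Lower bound -/

/-- the map which identifies the indices `0` and `1` -/
def fo {n : ℕ} : Fin (n + 2) → Fin (n + 1) := Fin.cons 0 id

theorem fo_surj {n : ℕ} : Function.Surjective (fo (n := n)) := fun i => ⟨i.succ, by simp [fo]⟩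

theorem lower (n : ℕ) : (1 / 2 : ℝ) ^ (n + 2) ≤ q (n + 2) := by
  classical
  rw [q_eq]
  have hinj : Function.Injective (fun (b : Sym2 (Fin (n + 1)) → Bool) =>
      (fun e : Sym2 (Fin (n + 2)) => b (e.map fo))) := by
    intro b b' h
    funext e
    induction e using Sym2.ind with
    | _ i j =>
      obtain ⟨i', rfl⟩ := fo_surj i
      obtain ⟨j', rfl⟩ := fo_surj j
      exact congrFun h s(i', j')
  have hle : 2 ^ Fintype.card (Sym2 (Fin (n + 1))) ≤
      (univ.filter fun b : Sym2 (Fin (n + 2)) → Bool => (SgnRed.sgM b).det = 0).card := by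
    have hcu : 2 ^ Fintype.card (Sym2 (Fin (n + 1))) =
        (univ : Finset (Sym2 (Fin (n + 1)) → Bool)).card := by
      rw [card_univ, Fintype.card_fun, Fintype.card_bool]
    rw [hcu]
    refine card_le_card_of_injOn _ (fun b _ => ?_) (hinj.injOn)
    rw [Finset.mem_coe, mem_filter]
    refine ⟨mem_univ _, ?_⟩
    refine Matrix.det_zero_of_row_eq (i := 0) (j := 1) (by simp) ?_
    funext j
    show (if b (Sym2.map fo s(0, j)) then (-1 : ℤ) else 1) =
      (if b (Sym2.map fo s(1, j)) then (-1 : ℤ) else 1)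
    rw [Sym2.map_mk, Sym2.map_mk]
    have : fo (0 : Fin (n + 2)) = fo (1 : Fin (n + 2)) := rfl
    simp only [this]
  have hle' : (2 : ℝ) ^ Fintype.card (Sym2 (Fin (n + 1))) ≤
      ((univ.filter fun b : Sym2 (Fin (n + 2)) → Bool => (SgnRed.sgM b).det = 0).card : ℝ) := by
    exact_mod_cast hle
  rw [le_div_iff₀ (by positivity), card_sym (n + 1)]
  refine le_trans (le_of_eq ?_) hle'
  rw [show n + 1 + 1 = n + 2 from rfl, pow_add 2 (Fintype.card (Sym2 (Fin (n + 1)))) (n + 2),
    one_div, inv_pow, mul_comm, mul_assoc, mul_inv_cancel₀ (by positivity), mul_one]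

theorem final (h : CorOne) :
    Tendsto (fun n : ℕ => q n ^ (1 / (n : ℝ))) atTop (nhds (1 / 2)) := by
  rw [tendsto_order]
  constructor
  · intro c hc
    filter_upwards [eventually_ge_atTop 2] with n hn
    obtain ⟨m, rfl⟩ := Nat.exists_eq_add_of_le' hn
    have h1 := lower m
    have hn0 : ((m + 2 : ℕ) : ℝ) ≠ 0 := by positivity
    refine lt_of_lt_of_le hc ?_
    calc (1 / 2 : ℝ) = ((1 / 2 : ℝ) ^ (m + 2)) ^ (1 / ((m + 2 : ℕ) : ℝ)) := by
          rw [← Real.rpow_natCast, ← Real.rpow_mul (by norm_num), mul_one_div_cancel hn0,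
            Real.rpow_one]
      _ ≤ _ := Real.rpow_le_rpow (by positivity) h1 (by positivity)
  · intro c hc
    -- rates `1/2 < y < z < c`
    set y : ℝ := (1 / 2 + c) / 2 with hy
    have hy1 : 1 / 2 < y := by rw [hy]; linarith
    have hyc : y < c := by rw [hy]; linarith
    set z : ℝ := (y + c) / 2 with hz
    have hyz : y < z := by rw [hz]; linarith
    have hzc : z < c := by rw [hz]; linarith
    have hy0 : 0 < y := by linarith
    have hz0 : 0 < z := by linarith
    have h1 := sing_of_corOne h y hy1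
    have h2 : ∀ᶠ n : ℕ in atTop, y ^ n ≤ z ^ (n + 1) := by
      have h3 : Tendsto (fun n : ℕ => (y / z) ^ n) atTop (nhds 0) :=
        tendsto_pow_atTop_nhds_zero_of_lt_one (by positivity) (by rw [div_lt_one hz0]; exact hyz)
      filter_upwards [h3.eventually_lt_const hz0] with n hn
      rw [div_pow, div_lt_iff₀ (by positivity)] at hn
      rw [pow_succ]
      linarith
    have h4 : ∀ᶠ n : ℕ in atTop, q (n + 1) ≤ z ^ (n + 1) := by
      filter_upwards [h1, h2] with n hn1 hn2
      rw [q_succ]
      exact hn1.trans hn2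
    have h5 : ∀ᶠ n : ℕ in atTop, q n ≤ z ^ n := by
      obtain ⟨n0, hn0⟩ := eventually_atTop.1 h4
      filter_upwards [eventually_ge_atTop (n0 + 1)] with n hn
      obtain ⟨m, rfl⟩ := Nat.exists_eq_add_of_le' (show 1 ≤ n by omega)
      exact hn0 m (by omega)
    filter_upwards [h5, eventually_ge_atTop 1] with n hn hn1
    have hn0 : (n : ℝ) ≠ 0 := by
      have : 0 < n := hn1
      positivity
    refine lt_of_le_of_lt ?_ hzc
    calc q n ^ (1 / (n : ℝ)) ≤ (z ^ n) ^ (1 / (n : ℝ)) :=
          Real.rpow_le_rpow (q_nonneg n) hn (by positivity)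
      _ = z := by
          rw [← Real.rpow_natCast, ← Real.rpow_mul hz0.le, mul_one_div_cancel hn0,
            Real.rpow_one]

end Vale.Agent.P160.Half.End288
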