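import Vale.Agent.P160.Half.End.Final

/-! # P160, end shell with a parameter: any rate `x0 ≥ 1/2` for corank one gives the same rate for
`q_n` -/

set_option linter.unusedSectionVars false

namespace Vale.Agent.P160.Half.End288

open Finset Matrix Module Filter

/-- corank one, exponential rate `x0` -/
def CorOneR (x0 : ℝ) : Prop := ∀ y : ℝ, x0 < y → ∀ᶠ n : ℕ in atTop,
  (N n 1 : ℝ) ≤ y ^ n * 2 ^ Fintype.card (Sym2 (Fin n))

theorem corOneR_half : CorOneR (1 / 2) ↔ CorOne := Iff.rfl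

theorem sing_of_corOneR (x0 : ℝ) (hx0 : 1 / 2 ≤ x0) (h : CorOneR x0) (y : ℝ) (hy : x0 < y) :
    ∀ᶠ n : ℕ in atTop, sing n ≤ y ^ n := by
  -- reduce to a smaller rate
  set x : ℝ := (x0 + y) / 2 with hxdef
  have hx : x0 < x := by rw [hxdef]; linarith
  have hxy : x < y := by rw [hxdef]; linarith
  have hx0' : 0 < x := by linarith
  obtain ⟨n0, hn0⟩ := eventually_atTop.1 (h x hx)
  set C : ℝ := max 1 ((x ^ n0)⁻¹ ⊔ 1) with hC
  have hC1 : 1 ≤ C := le_max_left _ _
  have H : ∀ n, a n 1 ≤ C * x ^ n := by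
    intro n
    rcases Nat.lt_or_ge n n0 with hn | hn
    · refine (a_le_one n 1).trans ?_
      rcases le_total 1 x with h1 | h1
      · exact one_le_mul_of_one_le_of_one_le hC1 (one_le_pow₀ h1)
      · have h2 : x ^ n0 ≤ x ^ n := pow_le_pow_of_le_one hx0'.le h1 hn.le
        have h3 : (x ^ n0)⁻¹ ≤ C := (le_max_left _ _).trans (le_max_right _ _)
        calc (1 : ℝ) = (x ^ n0)⁻¹ * x ^ n0 := (inv_mul_cancel₀ (by positivity)).symm
          _ ≤ C * x ^ n := mul_le_mul h3 h2 (by positivity) (by positivity)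
    · have h1 := hn0 n hn
      have h2 : a n 1 ≤ x ^ n := by
        unfold a
        rw [div_le_iff₀ (by positivity)]
        exact h1
      refine h2.trans ?_
      exact le_mul_of_one_le_left (by positivity) hC1
  filter_upwards [growth (y / x) (by rw [lt_div_iff₀ hx0']; linarith) C hC1] with n hn
  have h1 := sing_le C x (by linarith) (by positivity) H n (Nat.clog 2 (2 * n)) (by
    have := Nat.le_pow_clog (b := 2) (by norm_num) (2 * n)
    exact_mod_cast this)
  refine h1.trans ?_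
  calc (n : ℝ) * (C * x ^ n * 2 ^ (Nat.clog 2 (2 * n) * Nat.clog 2 (2 * n)))
      = x ^ n * ((n : ℝ) * (C * 2 ^ ((Nat.clog 2 (2 * n)) * (Nat.clog 2 (2 * n))))) := by ring
    _ ≤ x ^ n * (y / x) ^ n := mul_le_mul_of_nonneg_left hn (by positivity)
    _ = y ^ n := by rw [← mul_pow, mul_div_cancel₀ _ hx0'.ne']

theorem q_le_of_corOneR (x0 : ℝ) (hx0 : 1 / 2 ≤ x0) (h : CorOneR x0) (c : ℝ) (hc : x0 < c) :
    ∀ᶠ n : ℕ in atTop, q n ≤ c ^ n := by
  set y : ℝ := (x0 + c) / 2 with hy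
  have hy1 : x0 < y := by rw [hy]; linarith
  have hyc : y < c := by rw [hy]; linarith
  have hy0 : 0 < y := by linarith
  have hc0 : 0 < c := by linarith
  have h1 := sing_of_corOneR x0 hx0 h y hy1
  have h2 : ∀ᶠ n : ℕ in atTop, y ^ n ≤ c ^ (n + 1) := by
    have h3 : Tendsto (fun n : ℕ => (y / c) ^ n) atTop (nhds 0) :=
      tendsto_pow_atTop_nhds_zero_of_lt_one (by positivity) (by rw [div_lt_one hc0]; exact hyc)
    filter_upwards [h3.eventually_lt_const hc0] with n hn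
    rw [div_pow, div_lt_iff₀ (by positivity)] at hn
    rw [pow_succ]
    linarith
  have h4 : ∀ᶠ n : ℕ in atTop, q (n + 1) ≤ c ^ (n + 1) := by
    filter_upwards [h1, h2] with n hn1 hn2
    rw [q_succ]
    exact hn1.trans hn2
  obtain ⟨n0, hn0⟩ := eventually_atTop.1 h4
  filter_upwards [eventually_ge_atTop (n0 + 1)] with n hn
  obtain ⟨m, rfl⟩ := Nat.exists_eq_add_of_le' (show 1 ≤ n by omega)
  exact hn0 m (by omega)

/-- The shell with a parameter. -/
theorem finalR (x0 : ℝ) (hx0 : 1 / 2 ≤ x0) (h : CorOneR x0) :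
    (∀ c : ℝ, x0 < c → ∀ᶠ n : ℕ in atTop, q n ≤ c ^ n) ∧
    limsup (fun n : ℕ => q n ^ (1 / (n : ℝ))) atTop ≤ x0 := by
  refine ⟨q_le_of_corOneR x0 hx0 h, ?_⟩
  refine le_of_forall_gt_imp_ge_of_dense fun lam hlam => ?_
  have hl : 0 < lam := by linarith
  refine limsup_le_of_le ?_ ?_
  · exact isCoboundedUnder_le_of_le atTop (x := 0) fun n => Real.rpow_nonneg (q_nonneg n) _
  · filter_upwards [q_le_of_corOneR x0 hx0 h lam hlam, eventually_ge_atTop 1] with n hn hn1
    have hn0 : (n : ℝ) ≠ 0 := by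
      have : 0 < n := hn1
      positivity
    calc q n ^ (1 / (n : ℝ)) ≤ (lam ^ n) ^ (1 / (n : ℝ)) :=
          Real.rpow_le_rpow (q_nonneg n) hn (by positivity)
      _ = lam := by
          rw [← Real.rpow_natCast, ← Real.rpow_mul hl.le, mul_one_div_cancel hn0,
            Real.rpow_one]

/-- `CorOneR` from the `2 ^ (-(s - ε) n)` form (`x0 = 2 ^ (-s)`). -/
theorem corOneR_of_exp (s : ℝ)
    (h : ∀ e : ℝ, 0 < e → ∀ᶠ n : ℕ in atTop,
      (N n 1 : ℝ) ≤ (2 : ℝ) ^ (-((s - e) * n)) * 2 ^ Fintype.card (Sym2 (Fin n))) :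
    CorOneR ((2 : ℝ) ^ (-s)) := by
  intro y hy
  have hx0 : (0 : ℝ) < 2 ^ (-s) := by positivity
  have hy0 : 0 < y := hx0.trans hy
  -- `y = 2 ^ (-(s - e))`
  set e : ℝ := s + Real.logb 2 y with he
  have he0 : 0 < e := by
    have h1 : -s < Real.logb 2 y := by
      rw [Real.lt_logb_iff_rpow_lt (by norm_num) hy0]
      exact hy
    linarith
  filter_upwards [h e he0] with n hn
  refine hn.trans (le_of_eq ?_)
  have h2 : (2 : ℝ) ^ (-((s - e) * n)) = y ^ n := by
    have h3 : -((s - e) * (n : ℝ)) = Real.logb 2 y * n := by rw [he]; ring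
    rw [h3, Real.rpow_mul (by norm_num), Real.rpow_logb (by norm_num) (by norm_num) hy0,
      Real.rpow_natCast]
  rw [h2]

end Vale.Agent.P160.Half.End288
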